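import Mathlib

/-! A lower bound for interval probabilities of normalised sums, from the central limit theorem. -/

namespace Vale.Agent.P047

open MeasureTheory ProbabilityTheory Filter Finset
open scoped BigOperators Topology

noncomputable def law {Ω : Type} [Fintype Ω] (W : Ω → ℝ) : Measure ℝ :=
  (Fintype.card Ω : ENNReal)⁻¹ • ∑ ω, Measure.dirac (W ω)

theorem integral_law {Ω : Type} [Fintype Ω] (W : Ω → ℝ) {G : Type} [NormedAddCommGroup G]
    [NormedSpace ℝ G] [CompleteSpace G] (f : ℝ → G) :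
    ∫ x, f x ∂(law W) = (Fintype.card Ω : ℝ)⁻¹ • ∑ ω, f (W ω) := by
  rw [law, integral_smul_measure, integral_finsetSum_measure fun ω _ => integrable_dirac (by simp)]
  simp

instance {Ω : Type} [Fintype Ω] [Nonempty Ω] (W : Ω → ℝ) : IsProbabilityMeasure (law W) := by
  constructor
  simp [law, Measure.finsetSum_apply]
  exact ENNReal.inv_mul_cancel (by simp) (by simp)

open Classical in
theorem law_apply {Ω : Type} [Fintype Ω] [Nonempty Ω] (W : Ω → ℝ) (U : Set ℝ) :
    law W U = ENNReal.ofReal (𝔼 ω, if W ω ∈ U then (1 : ℝ) else 0) := by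
  rw [Fintype.expect_eq_sum_div_card, ENNReal.ofReal_div_of_pos (by exact_mod_cast Fintype.card_pos),
    ENNReal.ofReal_sum_of_nonneg (fun _ _ => by positivity)]
  simp only [law, Measure.smul_apply, Measure.finsetSum_apply, Measure.dirac_apply, smul_eq_mul,
    ENNReal.ofReal_natCast, ENNReal.div_eq_inv_mul]
  congr 1
  refine Finset.sum_congr rfl fun ω _ => ?_
  by_cases h : W ω ∈ U <;> simp [h]

theorem charFun_law {Ω : Type} [Fintype Ω] (W : Ω → ℝ) (t : ℝ) :
    charFun (law W) t = 𝔼 ω, Complex.exp (t * W ω * Complex.I) := by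
  rw [charFun_apply_real, integral_law, Fintype.expect_eq_sum_div_card]
  simp [div_eq_inv_mul]

open Classical in
theorem clt_open {Ω : Type} [Fintype Ω] [Nonempty Ω] (Z : Ω → ℝ) (h0 : 𝔼 ω, Z ω = 0)
    (h1 : 𝔼 ω, Z ω ^ 2 = 1) {U : Set ℝ} (hU : IsOpen U) {c : ℝ} (hc0 : 0 ≤ c)
    (hc : ENNReal.ofReal c < gaussianReal 0 1 U) :
    ∀ᶠ M : ℕ in atTop, c < 𝔼 ω : Fin M → Ω, if (√M)⁻¹ * ∑ k, Z (ω k) ∈ U then (1 : ℝ) else 0 := by
  let μ : ℕ → ProbabilityMeasure ℝ := fun M =>
    ⟨law (fun ω : Fin M → Ω => (√M)⁻¹ * ∑ k, Z (ω k)), inferInstance⟩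
  have ht : Tendsto μ atTop (𝓝 ⟨gaussianReal 0 1, inferInstance⟩) := by
    refine ProbabilityMeasure.tendsto_iff_tendsto_charFun.2 fun t => ?_
    have := tendsto_charFun_inv_sqrt_mul_pow (P := law Z) (X := id) aemeasurable_id
      (by rw [integral_law, ← h0, Fintype.expect_eq_sum_div_card]; simp [div_eq_inv_mul])
      (by rw [integral_law, ← h1, Fintype.expect_eq_sum_div_card]; simp [div_eq_inv_mul]) t
    simp only [ProbabilityMeasure.coe_mk, charFun_gaussianReal, μ]
    convert this using 2 with M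
    · rw [Measure.map_id, charFun_law, charFun_law, Finset.expect_pow, Fintype.piFinset_univ]
      refine Finset.expect_congr rfl fun ω _ => ?_
      rw [← Complex.exp_sum]
      congr 1
      push_cast
      simp only [Finset.mul_sum, Finset.sum_mul]
      exact Finset.sum_congr rfl fun k _ => by ring
    · simp [neg_div]
  have h2 := ProbabilityMeasure.le_liminf_measure_open_of_tendsto ht hU
  filter_upwards [eventually_lt_of_lt_liminf (hc.trans_le h2)] with M hM
  simp only [μ, ProbabilityMeasure.coe_mk, law_apply] at hM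
  exact (ENNReal.ofReal_lt_ofReal_iff_of_nonneg hc0).1 hM

theorem gauss_lower (R : ℝ) : ∃ c : ℝ, 0 < c ∧ ∀ a b : ℝ, a < b → -R ≤ a → b ≤ R →
    ENNReal.ofReal (c * (b - a)) < gaussianReal 0 1 (Set.Ioo a b) := by
  set d : ℝ := (√(2 * Real.pi))⁻¹ * Real.exp (-R ^ 2 / 2) with hd
  have hd0 : 0 < d := by have := Real.pi_pos; positivity
  refine ⟨d / 2, by positivity, fun a b hab ha hb => ?_⟩
  rw [gaussianReal_apply 0 one_ne_zero]
  calc ENNReal.ofReal (d / 2 * (b - a)) < ENNReal.ofReal (d * (b - a)) := by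
        rw [ENNReal.ofReal_lt_ofReal_iff (mul_pos hd0 (by linarith))]
        nlinarith
    _ = ∫⁻ _ in Set.Ioo a b, ENNReal.ofReal d := by
        rw [setLIntegral_const, Real.volume_Ioo, ENNReal.ofReal_mul hd0.le]
    _ ≤ _ := by
        refine setLIntegral_mono (measurable_gaussianPDF 0 1) fun x hx => ?_
        refine ENNReal.ofReal_le_ofReal ?_
        simp only [gaussianPDFReal, NNReal.coe_one, mul_one, sub_zero, hd]
        have : x ^ 2 ≤ R ^ 2 := sq_le_sq' (by linarith [hx.1]) (by linarith [hx.2])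
        exact mul_le_mul_of_nonneg_left (Real.exp_le_exp.2 (by linarith)) (by positivity)

end Vale.Agent.P047
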