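import Vale.Agent.P047.Step

/-! Balancing and composition. -/

set_option linter.unusedSectionVars false
set_option linter.unusedSimpArgs false

namespace Vale.Agent.P047

open Finset
open scoped BigOperators

theorem sg_not (b : Bool) : sg (!b) = -sg b := by cases b <;> simp [sg]

theorem V_neg {ι : Type} [Fintype ι] [DecidableEq ι] {d : ℕ} {g} (hg : g ∈ V ι d) :
    (fun x : ι → Bool => g (fun k => !x k)) ∈ V ι d := by
  induction hg using Submodule.span_induction with
  | mem g hg =>
    obtain ⟨S, hS, rfl⟩ := hg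
    have : (fun x : ι → Bool => chi S (fun k => !x k)) = ((-1 : ℝ) ^ S.card) • chi S := by
      funext x; simp only [chi, sg_not, prod_neg, Pi.smul_apply, smul_eq_mul]
    rw [this]
    exact Submodule.smul_mem _ _ (chi_mem hS)
  | zero => exact zero_mem _
  | add g g' _ _ h1 h2 => exact add_mem h1 h2
  | smul a g _ h => exact Submodule.smul_mem _ a h

theorem E_neg {ι : Type} [Fintype ι] [DecidableEq ι] (G : (ι → Bool) → ℝ) :
    𝔼 x : ι → Bool, G (fun k => !x k) = 𝔼 x, G x :=
  Fintype.expect_equiv (Function.Involutive.toPerm (fun x k => !x k) (fun x => by simp)) _ _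
    fun _ => rfl

theorem E_option {ι : Type} [Fintype ι] [DecidableEq ι] (G : Bool → (ι → Bool) → ℝ) :
    𝔼 x : Option ι → Bool, G (x none) (fun k => x (some k))
      = ((𝔼 x, G true x) + 𝔼 x, G false x) / 2 := by
  rw [Fintype.expect_equiv (Equiv.piOptionEquivProd (β := fun _ => Bool))
    (fun x => G (x none) (fun k => x (some k))) (fun p => G p.1 p.2)
    (fun _ => rfl), ← univ_product_univ, expect_product', Fintype.expect_eq_sum_div_card]
  simp

/-- a balanced Boolean function as a letter -/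
noncomputable def ofBal {ι : Type} [Fintype ι] [DecidableEq ι] (f : (ι → Bool) → ℝ) (d : ℕ)
    (h1 : ∀ x, f x = 1 ∨ f x = -1) (h2 : f ∈ V ι d) (h3 : 𝔼 x, f x = 0) : Letter where
  ι := ι
  Z := f
  c := d
  lam := 𝔼 x, f x * ∑ i, sg (x i)
  deg φ := by
    have : (fun x => φ (f x)) = (fun _ => (φ 1 + φ (-1)) / 2) + ((φ 1 - φ (-1)) / 2) • f := by
      funext x; rcases h1 x with h | h <;> simp [h] <;> ring
    rw [this]
    exact add_mem (V_mono (Nat.zero_le _) (const_mem _)) (Submodule.smul_mem _ _ h2)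
  cond φ := by
    have e1 : ∀ x, φ (f x) * ∑ i, sg (x i) = (φ 1 + φ (-1)) / 2 * ∑ i, sg (x i)
        + (φ 1 - φ (-1)) / 2 * (f x * ∑ i, sg (x i)) := by
      intro x; rcases h1 x with h | h <;> rw [h] <;> ring
    have e2 : ∀ x, φ (f x) * f x = (φ 1 + φ (-1)) / 2 * f x + (φ 1 - φ (-1)) / 2 := by
      intro x; rcases h1 x with h | h <;> rw [h] <;> ring
    simp only [e1, e2, expect_add_distrib, ← mul_expect, E_sg_sum, h3, Fintype.expect_const]
    ring

def Letter.IsBool (L : Letter) : Prop := (∀ x, L.Z x = 1 ∨ L.Z x = -1) ∧ 0 < L.lam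

theorem exists_bool (C : ℝ) : ∃ L : Letter, L.IsBool ∧ 0 < L.c ∧ C * √L.c < L.lam := by
  obtain ⟨n, d, f, h1, h2, hd, h3⟩ := boolean (2 * |C| + 1)
  let g : (Option (Fin n) → Bool) → ℝ := fun x =>
    if x none then f (fun k => x (some k)) else -f (fun k => !x (some k))
  have g1 : ∀ x, g x = 1 ∨ g x = -1 := by
    intro x; simp only [g]; split_ifs
    · exact h1 _
    · rcases h1 (fun k => !x (some k)) with h | h <;> simp [h]
  have g2 : g ∈ V (Option (Fin n)) (1 + d) := by
    have : g = ((1 / 2 : ℝ) • chi ∅ + (1 / 2 : ℝ) • chi {none}) * (fun x => f (fun k => x (some k)))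
        - ((1 / 2 : ℝ) • chi ∅ - (1 / 2 : ℝ) • chi {none}) * fun x => f (fun k => !x (some k)) := by
      funext x; cases h : x none <;> simp [g, chi, sg, h] <;> norm_num
    rw [this]
    exact sub_mem (V_mul (add_mem (Submodule.smul_mem _ _ (chi_mem (by simp)))
      (Submodule.smul_mem _ _ (chi_mem (by simp)))) (V_pull some (Option.some_injective _) h2))
      (V_mul (sub_mem (Submodule.smul_mem _ _ (chi_mem (by simp)))
      (Submodule.smul_mem _ _ (chi_mem (by simp)))) (V_pull some (Option.some_injective _) (V_neg h2)))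
  have g3 : 𝔼 x, g x = 0 := by
    rw [E_option (fun b x => if b then f x else -f (fun k => !x k))]
    simp [expect_neg_distrib, E_neg f]
  have g4 : (𝔼 x, f x * ∑ i, sg (x i)) - 1 ≤ 𝔼 x, g x * ∑ i, sg (x i) := by
    simp only [Fintype.sum_option]
    rw [E_option (fun b x => (if b then f x else -f (fun k => !x k)) * (sg b + ∑ i, sg (x i)))]
    have a1 := E_neg (fun x => -f x * (sg false + ∑ i, sg (!x i)))
    simp only [Bool.not_not] at a1
    simp only [if_true, Bool.false_eq_true, if_false, a1]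
    rw [← expect_add_distrib, expect_div, ← Fintype.expect_const (ι := Fin n → Bool) (1 : ℝ),
      ← expect_sub_distrib]
    refine expect_le_expect fun x _ => ?_
    simp only [sg_not, sum_neg_distrib, show sg true = 1 from rfl, show sg false = -1 from rfl]
    rcases h1 x with h | h <;> rw [h] <;> linarith
  have hd1 : (1 : ℝ) ≤ d := by exact_mod_cast hd
  have s1 : 1 ≤ √(d : ℝ) := Real.one_le_sqrt.2 hd1
  have s2 : √((1 + d : ℕ) : ℝ) ≤ 2 * √d := by
    rw [Real.sqrt_le_left (by positivity), mul_pow, Real.sq_sqrt (by positivity)]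
    push_cast; linarith
  have s3 : |C| * √((1 + d : ℕ) : ℝ) < 𝔼 x, g x * ∑ i, sg (x i) := by
    nlinarith [mul_le_mul_of_nonneg_left s2 (abs_nonneg C)]
  refine ⟨ofBal g (1 + d) g1 g2 g3, ⟨g1, lt_of_le_of_lt (by positivity) s3⟩, by simp [ofBal], ?_⟩
  exact lt_of_le_of_lt (mul_le_mul_of_nonneg_right (le_abs_self C) (by positivity)) s3

noncomputable def toB (t : ℝ) : Bool := decide (t = 1)

theorem push {B : Letter} (hB : B.IsBool) {ι : Type} [Fintype ι] [DecidableEq ι] {D : ℕ} {Φ}
    (hΦ : Φ ∈ V ι D) : 𝔼 ω : ι → B.ι → Bool, Φ (fun i => toB (B.Z (ω i))) = 𝔼 x, Φ x := by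
  have hs : ∀ a, sg (toB (B.Z a)) = B.Z a := by
    intro a; rcases hB.1 a with h | h <;> rw [h] <;> norm_num [sg, toB]
  induction hΦ using Submodule.span_induction with
  | mem g hg =>
    obtain ⟨S, -, rfl⟩ := hg
    rcases S.eq_empty_or_nonempty with rfl | hS
    · simp [chi]
    · rw [Fintype.expect_eq_sum_div_card (chi S), sum_chi hS, zero_div]
      obtain ⟨i, hi⟩ := hS
      rw [E_update _ i]
      refine expect_eq_zero fun ω _ => ?_
      simp only [chi, hs, ← mul_prod_erase S _ hi, Function.update_self]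
      have : ∀ a, ∏ j ∈ S.erase i, B.Z (Function.update ω i a j) = ∏ j ∈ S.erase i, B.Z (ω j) :=
        fun a => prod_congr rfl fun j hj => by rw [Function.update_of_ne (mem_erase.1 hj).1]
      simp only [this, ← expect_mul, B.mean hB.2.ne', zero_mul]
  | zero => simp
  | add g g' _ _ h1 h2 => simp only [Pi.add_apply, expect_add_distrib, h1, h2]
  | smul a g _ h => simp only [Pi.smul_apply, smul_eq_mul, ← mul_expect, h]

noncomputable def Letter.comp (A B : Letter) (hB : B.IsBool) : Letter :=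
  B.pi A.ι (fun z => A.Z fun i => toB (z i)) A.c A.lam
    (fun φ => by
      have : ∀ Φ ∈ V A.ι A.c, (fun z : A.ι → ℝ => Φ fun i => toB (z i)) ∈ Jt A.ι A.c := by
        intro Φ hΦ
        induction hΦ using Submodule.span_induction with
        | mem g hg =>
          obtain ⟨S, hS, rfl⟩ := hg
          exact Submodule.subset_span ⟨S, hS, fun z z' h => prod_congr rfl fun i hi => by simp only [h i hi]⟩
        | zero => exact zero_mem _
        | add g g' _ _ h1 h2 => exact add_mem h1 h2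
        | smul a g _ h => exact Submodule.smul_mem _ a h
      exact this _ (A.deg φ))
    (fun φ => by
      have hs : ∀ a, sg (toB (B.Z a)) = B.Z a := by
        intro a; rcases hB.1 a with h | h <;> rw [h] <;> norm_num [sg, toB]
      have a1 := push hB (A.deg fun t => φ t * t)
      have a2 : (fun x : A.ι → Bool => ∑ i, sg (x i)) ∈ V A.ι 1 := by
        have : (fun x : A.ι → Bool => ∑ i, sg (x i)) = ∑ i, chi {i} := by
          funext x; simp [chi]
        rw [this]; exact sum_mem fun i _ => chi_mem (by simp)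
      have a3 := push hB (V_mul (A.deg φ) a2)
      simp only [Pi.mul_apply, hs] at a3
      rw [a1, a3, A.cond])

theorem exists_pow {B : Letter} (hB : B.IsBool) (k : ℕ) :
    ∃ L : Letter, L.IsBool ∧ L.c = B.c ^ k ∧ L.lam = B.lam ^ k := by
  induction k with
  | zero =>
    refine ⟨bit, ⟨fun x => ?_, one_pos⟩, rfl, rfl⟩
    simp only [bit, sg]; split_ifs <;> simp
  | succ k ih =>
    obtain ⟨L, hL, h1, h2⟩ := ih
    refine ⟨L.comp B hB, ⟨fun x => hL.1 _, mul_pos hB.2 hL.2⟩, ?_, ?_⟩
    · change L.c * B.c = _; rw [h1, pow_succ]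
    · change B.lam * L.lam = _; rw [h2, pow_succ']

theorem poly : ∃ δ c : ℝ, 0 < δ ∧ 0 < c ∧ ∀ D : ℕ, 1 ≤ D → ∃ (n : ℕ) (f : (Fin n → Bool) → ℝ),
    (∀ x, f x = 1 ∨ f x = -1) ∧ f ∈ V (Fin n) D ∧
    c * (D : ℝ) ^ (1 / 2 + δ) ≤ 𝔼 x, f x * ∑ i, sg (x i) := by
  obtain ⟨B0, hB0, hc0, h0⟩ := exists_bool 2
  obtain ⟨B, hB, hc, h⟩ : ∃ B : Letter, B.IsBool ∧ 1 < B.c ∧ √B.c < B.lam := by
    by_cases h1 : 1 < B0.c
    · exact ⟨B0, hB0, h1, by linarith [Real.sqrt_nonneg (B0.c : ℝ)]⟩
    · have h2 : B0.c = 1 := by omega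
      refine ⟨{ B0 with c := 2, deg := fun φ => V_mono (by omega) (B0.deg φ) }, hB0, by simp, ?_⟩
      rw [h2] at h0
      simp only [Nat.cast_one, Real.sqrt_one, mul_one] at h0
      refine lt_trans ?_ h0
      rw [Real.sqrt_lt' (by norm_num)]; norm_num
  have hcr : (1 : ℝ) < B.c := by exact_mod_cast hc
  set a := Real.logb B.c B.lam with ha
  have ha1 : (B.c : ℝ) ^ a = B.lam := Real.rpow_logb (by linarith) hcr.ne' hB.2
  have ha2 : 1 / 2 < a := by
    rw [← Real.rpow_lt_rpow_left_iff hcr, ha1, ← Real.sqrt_eq_rpow]; exact h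
  refine ⟨a - 1 / 2, B.lam⁻¹, by linarith, inv_pos.2 hB.2, fun D hD => ?_⟩
  obtain ⟨k, hk1, hk2⟩ := exists_nat_pow_near hD hc
  obtain ⟨L, hL, l1, l2⟩ := exists_pow hB k
  let e := Fintype.equivFin L.ι
  refine ⟨Fintype.card L.ι, fun x => L.Z fun i => x (e i), fun x => hL.1 _,
    V_mono (l1 ▸ hk1) (V_pull e e.injective (L.deg id)), ?_⟩
  rw [Fintype.expect_equiv (Equiv.arrowCongr e.symm (Equiv.refl Bool)) _
      (fun x => id (L.Z x) * ∑ i, sg (x i)) (fun x => by
        rw [← Equiv.sum_comp e]; rfl), L.cond]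
  have : ∀ x, id (L.Z x) * L.Z x = 1 := fun x => by rcases hL.1 x with h | h <;> simp [h]
  simp only [this, Fintype.expect_const, mul_one, l2, add_sub_cancel]
  rw [inv_mul_le_iff₀ hB.2, ← pow_succ', ← ha1, Real.rpow_pow_comm (by positivity)]
  exact Real.rpow_le_rpow (by positivity) (by exact_mod_cast hk2.le) (by linarith)

end Vale.Agent.P047
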