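import Vale.Agent.P047.Letter

/-! The gadget that gains variance. -/

set_option linter.unusedSectionVars false
set_option linter.unusedSimpArgs false

namespace Vale.Agent.P047

open Finset
open scoped BigOperators

section
variable {Ω κ : Type} [Fintype Ω] [Nonempty Ω] [Fintype κ] [DecidableEq κ] (Z : Ω → ℝ)

theorem E_marg (φ : ℝ → ℝ) (k : κ) : 𝔼 ω : κ → Ω, φ (Z (ω k)) = 𝔼 a, φ (Z a) := by
  rw [E_update _ k]; simp

theorem E_quad {Λ : Type} [DecidableEq Λ] (e : Λ → κ) (he : Function.Injective e)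
    (u d : Λ → ℝ → ℝ) (p v : Λ → ℝ) (hp : ∀ i, 𝔼 a, u i (Z a) = p i)
    (hd : ∀ i, 𝔼 a, u i (Z a) * d i (Z a) = 0) (hv : ∀ i, 𝔼 a, u i (Z a) * d i (Z a) ^ 2 = p i * v i)
    (H α : (κ → ℝ) → ℝ) (s : Finset Λ) (hH : ∀ i ∈ s, ∀ z t, H (Function.update z (e i) t) = H z)
    (hα : ∀ i ∈ s, ∀ z t, α (Function.update z (e i) t) = α z) (l : ℝ) :
    𝔼 ω : κ → Ω, H (fun k => Z (ω k)) * (∏ i ∈ s, u i (Z (ω (e i)))) *
      ((α (fun k => Z (ω k)) + ∑ i ∈ s, d i (Z (ω (e i)))) ^ 2 + l)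
    = (∏ i ∈ s, p i) * 𝔼 ω : κ → Ω, H (fun k => Z (ω k)) * (α (fun k => Z (ω k)) ^ 2 + ∑ i ∈ s, v i + l) := by
  induction s using Finset.induction_on generalizing l with
  | empty => simp
  | insert j s hj ih =>
    have ih' := ih (fun i hi => hH i (mem_insert_of_mem hi)) (fun i hi => hα i (mem_insert_of_mem hi))
      (v j + l)
    rw [E_update _ (e j), prod_insert hj, sum_insert hj, mul_assoc]
    simp only [show ∀ x y : ℝ, x + (v j + y) + l = x + y + (v j + l) from fun x y => by ring]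
    rw [← ih', mul_expect]
    refine expect_congr rfl fun ω _ => ?_
    have hne : ∀ i ∈ s, e i ≠ e j := fun i hi h => hj (he h ▸ hi)
    have e1 : ∀ a, ∏ i ∈ s, u i (Z (Function.update ω (e j) a (e i))) = ∏ i ∈ s, u i (Z (ω (e i))) :=
      fun a => prod_congr rfl fun i hi => by rw [Function.update_of_ne (hne i hi)]
    have e2 : ∀ a, ∑ i ∈ s, d i (Z (Function.update ω (e j) a (e i))) = ∑ i ∈ s, d i (Z (ω (e i))) :=
      fun a => sum_congr rfl fun i hi => by rw [Function.update_of_ne (hne i hi)]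
    simp only [prod_insert hj, sum_insert hj, comp_upd, hH j (mem_insert_self _ _),
      hα j (mem_insert_self _ _), e1, e2, Function.update_self]
    set A := H (fun k => Z (ω k)) * ∏ i ∈ s, u i (Z (ω (e i))) with hA
    set β := α (fun k => Z (ω k)) + ∑ i ∈ s, d i (Z (ω (e i))) with hβ
    have : ∀ a, H (fun k => Z (ω k)) * (u j (Z a) * ∏ i ∈ s, u i (Z (ω (e i)))) *
        ((α (fun k => Z (ω k)) + (d j (Z a) + ∑ i ∈ s, d i (Z (ω (e i))))) ^ 2 + l)
        = A * (β ^ 2 + l) * u j (Z a) + A * (2 * β) * (u j (Z a) * d j (Z a))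
          + A * (u j (Z a) * d j (Z a) ^ 2) := fun a => by rw [hA, hβ]; ring
    simp only [this, expect_add_distrib, ← mul_expect, hp, hd, hv]
    ring

variable {Z} (h0 : 𝔼 a, Z a = 0) (h1 : 𝔼 a, Z a ^ 2 = 1)
include h0 h1

theorem E_line (k : κ) (H α : (κ → ℝ) → ℝ) (hH : ∀ z t, H (Function.update z k t) = H z)
    (hα : ∀ z t, α (Function.update z k t) = α z) :
    𝔼 ω : κ → Ω, H (fun k => Z (ω k)) * ((α (fun k => Z (ω k)) + Z (ω k)) ^ 2 - 1)
    = 𝔼 ω : κ → Ω, H (fun k => Z (ω k)) * α (fun k => Z (ω k)) ^ 2 := by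
  have := E_quad Z (κ := κ) id Function.injective_id (fun _ _ => 1) (fun _ t => t) (fun _ => 1)
    (fun _ => 1) (by simp) (fun _ => by simpa using h0) (fun _ => by simpa using h1) H α {k} (by simpa) (by simpa) (-1)
  simpa [sub_eq_add_neg] using this

theorem E_sum_sq (s : Finset κ) : 𝔼 ω : κ → Ω, (∑ k ∈ s, Z (ω k)) ^ 2 = s.card := by
  have := E_quad Z (κ := κ) id Function.injective_id (fun _ _ => 1) (fun _ t => t) (fun _ => 1)
    (fun _ => 1) (by simp) (fun _ => by simpa using h0) (fun _ => by simpa using h1) (fun _ => 1) (fun _ => 0) s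
    (by simp) (by simp) 0
  simpa using this

theorem E_sum_four (s : Finset κ) :
    𝔼 ω : κ → Ω, (∑ k ∈ s, Z (ω k)) ^ 4 ≤ s.card * (𝔼 a, Z a ^ 4) + 3 * s.card ^ 2 := by
  induction s using Finset.induction_on with
  | empty => simp
  | insert j s hj ih =>
    have e0 : 𝔼 ω : κ → Ω, ∑ k ∈ s, Z (ω k) = 0 := by
      rw [expect_sum_comm]
      exact sum_eq_zero fun k _ => (E_marg Z id k).trans h0
    have e2 := E_sum_sq h0 h1 s
    have e1 : ∀ (ω : κ → Ω) a, ∑ i ∈ s, Z (Function.update ω j a i) = ∑ i ∈ s, Z (ω i) :=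
      fun ω a => sum_congr rfl fun i hi => by rw [Function.update_of_ne (ne_of_mem_of_not_mem hi hj)]
    rw [E_update _ j]
    simp only [sum_insert hj, Function.update_self, e1]
    have : ∀ x y : ℝ, (x + y) ^ 4 = x ^ 4 + (4 * y) * x ^ 3 + (6 * y ^ 2) * x ^ 2 + (4 * y ^ 3) * x
      + y ^ 4 := fun x y => by ring
    simp only [this, expect_add_distrib, ← mul_expect, h0, h1, Fintype.expect_const, ← expect_mul,
      e0, e2, card_insert_of_notMem hj]
    push_cast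
    have : (0 : ℝ) ≤ s.card := by positivity
    nlinarith

end

/-- parameters of the gadget -/
structure Par where
  Λ : Type
  [fΛ : Fintype Λ]
  [dΛ : DecidableEq Λ]
  g : Λ → ℝ
  J : ℝ → Λ
  R : ℝ
  h : ℝ
  w : ℝ
  q : ℝ
  y : ℝ
  η : ℝ
  sum_g : ∑ j, g j = 0
  hJ : ∀ x, |x| ≤ R + 3 → |x - g (J x)| ≤ h
  hR : 1 ≤ R
  hw : 0 < w
  hwh : w ≤ h
  hw1 : Fintype.card Λ * w ≤ 1 / 2
  hw2 : w ≤ 1 / 4
  hq : 0 < q
  hη : 0 < η
  num : η ≤ y / 4 - 12 / R ^ 2 - (4 * h ^ 2 + 4 * Fintype.card Λ * w ^ 2) / q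

@[reducible] instance (P : Par) : Fintype P.Λ := P.fΛ
@[reducible] instance (P : Par) : DecidableEq P.Λ := P.dΛ

namespace Par

variable (P : Par)

open Classical in
noncomputable def u (j : P.Λ) (t : ℝ) : ℝ := if t ∈ Set.Ioo (P.g j - P.w) (P.g j + P.w) then 1 else 0
open Classical in
noncomputable def Y (t : ℝ) : ℝ := if t ∈ Set.Ioo (1 : ℝ) 2 then 1 else 0
noncomputable def A (t : ℝ) : ℝ := if |t| ≤ P.R then 1 else 0

def S (z : Fin 3 ⊕ P.Λ → ℝ) : ℝ := z (.inl 0) + z (.inl 1) + ∑ j, z (.inr j)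

noncomputable def H (τ : ℝ) (j : P.Λ) (z : Fin 3 ⊕ P.Λ → ℝ) : ℝ :=
  P.A (z (.inl 0)) * Y (z (.inl 1)) * if P.J (z (.inl 0) + z (.inl 1) + τ) = j then 1 else 0

noncomputable def r (τ : ℝ) (z : Fin 3 ⊕ P.Λ → ℝ) : ℝ :=
  ∑ j, P.H τ j z * ∏ i ∈ univ.erase j, P.u i (z (.inr i))
    + (1 - P.A (z (.inl 0))) * ∏ i, P.u i (z (.inr i)) - Y (z (.inl 1)) * ∏ i, P.u i (z (.inr i))

theorem u01 (j t) : P.u j t = 0 ∨ P.u j t = 1 := by unfold u; split_ifs <;> simp
theorem Y01 (t) : Y t = 0 ∨ Y t = 1 := by unfold Y; split_ifs <;> simp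
theorem A01 (t) : P.A t = 0 ∨ P.A t = 1 := by unfold A; split_ifs <;> simp

theorem prod01 (s : Finset P.Λ) (z : P.Λ → ℝ) :
    ∏ i ∈ s, P.u i (z i) = 0 ∨ ∏ i ∈ s, P.u i (z i) = 1 := by
  induction s using Finset.induction_on with
  | empty => simp
  | insert j s hj ih =>
    rw [prod_insert hj]
    rcases ih with h | h <;> rcases P.u01 j (z j) with h' | h' <;> simp [h, h']

theorem r01 (τ z) : P.r τ z = 0 ∨ P.r τ z = 1 := by
  unfold r H
  set j := P.J (z (.inl 0) + z (.inl 1) + τ)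
  simp only [mul_ite, mul_one, mul_zero, ite_mul, zero_mul, sum_ite_eq, mem_univ, if_true]
  rw [← mul_prod_erase univ _ (mem_univ j)]
  rcases P.prod01 (univ.erase j) (fun i => z (.inr i)) with h | h <;>
    rcases P.u01 j (z (.inr j)) with h1 | h1 <;> rcases Y01 (z (.inl 1)) with h2 | h2 <;>
    rcases P.A01 (z (.inl 0)) with h3 | h3 <;> simp [h, h1, h2, h3]

theorem gain {Ω : Type} [Fintype Ω] [Nonempty Ω] {Z : Ω → ℝ} (h0 : 𝔼 a, Z a = 0)
    (h1 : 𝔼 a, Z a ^ 2 = 1) (h4 : 𝔼 a, Z a ^ 4 ≤ 4) (hy : P.y ≤ 𝔼 a, Y (Z a))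
    (hp : ∀ j, P.q ≤ 𝔼 a, P.u j (Z a)) : ∃ τ : ℝ,
    𝔼 ω : Fin 3 ⊕ P.Λ → Ω, P.r τ (fun k => Z (ω k)) * (P.S (fun k => Z (ω k)) ^ 2 - 1)
      ≤ - (P.q ^ Fintype.card P.Λ * P.η) := by
  set p : P.Λ → ℝ := fun j => 𝔼 a, P.u j (Z a) with hpd
  have hp0 : ∀ j, 0 < p j := fun j => P.hq.trans_le (hp j)
  set m : P.Λ → ℝ := fun j => (𝔼 a, P.u j (Z a) * Z a) / p j with hm
  set v : P.Λ → ℝ := fun j => (𝔼 a, P.u j (Z a) * (Z a - m j) ^ 2) / p j with hv
  have hw := P.hw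
  have hmg : ∀ j, |m j - P.g j| ≤ P.w := by
    intro j
    have e : m j - P.g j = (𝔼 a, P.u j (Z a) * (Z a - P.g j)) / p j := by
      simp only [mul_sub, expect_sub_distrib, ← expect_mul, hm]
      field_simp [(hp0 j).ne']
      rw [mul_comm]
    rw [e, abs_div, abs_of_pos (hp0 j), div_le_iff₀ (hp0 j), hpd, mul_expect]
    refine (abs_expect_le _ _).trans (expect_le_expect fun a _ => ?_)
    unfold u
    split_ifs with h
    · simp only [one_mul, mul_one]; exact abs_le.2 ⟨by linarith [h.1], by linarith [h.2]⟩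
    · simp
  have hv0 : ∀ j, 0 ≤ v j := fun j => div_nonneg (expect_nonneg fun a _ => mul_nonneg
    (by rcases P.u01 j (Z a) with h | h <;> simp [h]) (sq_nonneg _)) (hp0 j).le
  have hv1 : ∀ j, v j ≤ 4 * P.w ^ 2 := by
    intro j
    rw [hv, div_le_iff₀ (hp0 j), hpd, mul_expect]
    refine expect_le_expect fun a _ => ?_
    unfold u
    split_ifs with h
    · have := abs_le.1 (hmg j)
      have : (Z a - m j) ^ 2 ≤ (2 * P.w) ^ 2 := sq_le_sq' (by linarith [h.1]) (by linarith [h.2])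
      linarith
    · simp
  have hsv : ∀ s : Finset P.Λ, ∑ j ∈ s, v j ≤ 4 * Fintype.card P.Λ * P.w ^ 2 := by
    intro s
    refine (sum_le_univ_sum_of_nonneg hv0).trans ((sum_le_sum fun j _ => hv1 j).trans ?_)
    simp; linarith
  have hsv0 : ∀ s : Finset P.Λ, 0 ≤ ∑ j ∈ s, v j := fun s => sum_nonneg fun j _ => hv0 j
  set τ := ∑ j, m j with hτ
  have hτ1 : |τ| ≤ 1 / 2 := by
    have : τ = ∑ j, (m j - P.g j) := by rw [sum_sub_distrib, P.sum_g, sub_zero]
    rw [this]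
    refine (abs_sum_le_sum_abs _ _).trans ((sum_le_sum fun j _ => hmg j).trans ?_)
    simpa using P.hw1
  have quad := E_quad Z (κ := Fin 3 ⊕ P.Λ) Sum.inr Sum.inr_injective P.u (fun j t => t - m j) p v
    (fun _ => rfl) (fun j => by
      simp only [mul_sub, expect_sub_distrib, ← expect_mul, hm]
      field_simp [(hp0 j).ne']
      ring) (fun j => by rw [hv]; field_simp [(hp0 j).ne'])
  refine ⟨τ, ?_⟩
  have hP0 : 0 < ∏ j, p j := prod_pos fun j _ => hp0 j
  have hPq : P.q ^ Fintype.card P.Λ ≤ ∏ j, p j := by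
    simpa using prod_le_prod (s := univ) (f := fun _ => P.q) (fun _ _ => P.hq.le) fun j _ => hp j
  have TN : (∏ j, p j) * (P.y / 4) ≤ 𝔼 ω : Fin 3 ⊕ P.Λ → Ω, (Y (Z (ω (.inl 1))) *
      ∏ i, P.u i (Z (ω (.inr i)))) * (P.S (fun k => Z (ω k)) ^ 2 - 1) := by
    have e1 := E_line h0 h1 (κ := Fin 3 ⊕ P.Λ) (.inl 0)
      (fun z => Y (z (.inl 1)) * ∏ i, P.u i (z (.inr i))) (fun z => z (.inl 1) + ∑ j, z (.inr j))
      (by simp) (by simp)
    have e2 := quad (fun z => Y (z (.inl 1))) (fun z => z (.inl 1) + τ) univ (by simp) (by simp) 0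
    simp only [sum_sub_distrib, ← hτ, add_zero, add_add_sub_cancel, add_assoc,
      add_sub_cancel] at e2
    have e3 : ∀ z, P.S z = z (.inl 1) + ∑ j, z (.inr j) + z (.inl 0) := fun z => by unfold S; ring
    simp only [e3]
    rw [e1, e2]
    refine mul_le_mul_of_nonneg_left ?_ hP0.le
    rw [← E_marg Z Y (Sum.inl 1 : Fin 3 ⊕ P.Λ)] at hy
    refine le_trans (div_le_div_of_nonneg_right hy (by norm_num)) ?_
    rw [expect_div]
    refine expect_le_expect fun ω _ => ?_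
    unfold Y
    split_ifs with h
    · have := abs_le.1 hτ1
      have := hsv0 univ
      nlinarith [h.1]
    · simp
  have TY : 𝔼 ω : Fin 3 ⊕ P.Λ → Ω, ((1 - P.A (Z (ω (.inl 0)))) *
      ∏ i, P.u i (Z (ω (.inr i)))) * (P.S (fun k => Z (ω k)) ^ 2 - 1)
      ≤ (∏ j, p j) * (12 / P.R ^ 2) := by
    have e1 := E_line h0 h1 (κ := Fin 3 ⊕ P.Λ) (.inl 1)
      (fun z => (1 - P.A (z (.inl 0))) * ∏ i, P.u i (z (.inr i)))
      (fun z => z (.inl 0) + ∑ j, z (.inr j)) (by simp) (by simp)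
    have e2 := quad (fun z => 1 - P.A (z (.inl 0))) (fun z => z (.inl 0) + τ) univ (by simp) (by simp) 0
    simp only [sum_sub_distrib, ← hτ, add_zero, add_add_sub_cancel, add_assoc,
      add_sub_cancel] at e2
    simp only [S, add_right_comm _ (Z _) (∑ _, _)] at e1 ⊢
    rw [e1, e2]
    refine mul_le_mul_of_nonneg_left ?_ hP0.le
    have hR := P.hR
    rw [← E_marg Z (· ^ 4) (Sum.inl 0 : Fin 3 ⊕ P.Λ)] at h4
    refine le_trans ?_ (show 3 / P.R ^ 2 * _ ≤ _ from (mul_le_mul_of_nonneg_left h4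
      (by positivity)).trans (le_of_eq (by ring)))
    rw [mul_expect]
    refine expect_le_expect fun ω _ => ?_
    unfold A
    split_ifs with h
    · simp; positivity
    · set a := Z (ω (.inl 0))
      have a1 : P.R ^ 2 ≤ a ^ 2 := by rw [← sq_abs a]; exact pow_le_pow_left₀ (by linarith) (by linarith) 2
      have a2 : 1 ≤ P.R ^ 2 := one_le_pow₀ hR
      have a3 := hsv univ
      have a4 : τ ^ 2 ≤ (1 / 2) ^ 2 := by rw [← sq_abs τ]; exact pow_le_pow_left₀ (abs_nonneg _) hτ1 2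
      have a5 : 4 * Fintype.card P.Λ * P.w ^ 2 ≤ 1 / 2 := by nlinarith [P.hw1, P.hw2]
      rw [sub_zero, one_mul, div_mul_eq_mul_div, le_div_iff₀ (by positivity)]
      have a6 : (a + τ) ^ 2 + ∑ j, v j ≤ 3 * a ^ 2 := by nlinarith [sq_nonneg (a - τ)]
      nlinarith [mul_le_mul a6 a1 (by positivity) (by positivity)]
  have TJ : ∀ j, 𝔼 ω : Fin 3 ⊕ P.Λ → Ω, (P.H τ j (fun k => Z (ω k)) *
      ∏ i ∈ univ.erase j, P.u i (Z (ω (.inr i)))) * (P.S (fun k => Z (ω k)) ^ 2 - 1)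
      ≤ (∏ j, p j) * ((4 * P.h ^ 2 + 4 * Fintype.card P.Λ * P.w ^ 2) / P.q) *
        𝔼 ω : Fin 3 ⊕ P.Λ → Ω, P.H τ j (fun k => Z (ω k)) := by
    intro j
    have e1 := E_line h0 h1 (κ := Fin 3 ⊕ P.Λ) (.inr j)
      (fun z => P.H τ j z * ∏ i ∈ univ.erase j, P.u i (z (.inr i)))
      (fun z => z (.inl 0) + z (.inl 1) + ∑ i ∈ univ.erase j, z (.inr i))
      (fun z t => congrArg₂ _ (by simp [H]) (prod_congr rfl fun i hi => by
            rw [Function.update_of_ne (by simpa using (mem_erase.1 hi).1)]))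
      (fun z t => congrArg₂ _ (by simp) (sum_congr rfl fun i hi => by
            rw [Function.update_of_ne (by simpa using (mem_erase.1 hi).1)]))
    have e2 := quad (P.H τ j) (fun z => z (.inl 0) + z (.inl 1) + τ - m j) (univ.erase j)
      (by simp [H]) (by simp) 0
    have e3 : ∀ x y : ℝ, x + τ - m j + (y - ∑ i ∈ univ.erase j, m i) = x + y := by
      intro x y; rw [hτ, ← add_sum_erase univ m (mem_univ j)]; ring
    simp only [sum_sub_distrib, add_zero, e3] at e2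
    simp only [S, ← sum_erase_add univ _ (mem_univ j), ← add_assoc]
    rw [e1, e2]
    have e4 : ∏ i ∈ univ.erase j, p i ≤ (∏ j, p j) / P.q := by
      rw [le_div_iff₀ P.hq, ← prod_erase_mul univ _ (mem_univ j)]
      exact mul_le_mul_of_nonneg_left (hp j) (prod_nonneg fun i _ => (hp0 i).le)
    have hH : ∀ z, 0 ≤ P.H τ j z := fun z => by
      unfold H
      rcases Y01 (z (.inl 1)) with h2 | h2 <;> rcases P.A01 (z (.inl 0)) with h3 | h3 <;>
        simp [h2, h3]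
      positivity
    rw [show ∀ a b c d : ℝ, a * (b / c) * d = a / c * (b * d) from fun a b c d => by ring]
    refine mul_le_mul e4 ?_ (expect_nonneg fun ω _ => mul_nonneg (hH _)
      (add_nonneg (sq_nonneg _) (hsv0 _))) (div_nonneg hP0.le P.hq.le)
    rw [mul_expect]
    refine expect_le_expect fun ω _ => ?_
    rw [mul_comm]
    by_cases hz : P.H τ j (fun k => Z (ω k)) = 0
    · simp [hz]
    refine mul_le_mul_of_nonneg_right (add_le_add ?_ (hsv _)) (hH _)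
    simp only [H, A, Y, mul_eq_zero, ite_eq_right_iff, one_ne_zero, imp_false, not_or, not_not] at hz
    obtain ⟨⟨z1, z2⟩, z3⟩ := hz
    have t1 := abs_le.1 z1
    have t2 := abs_le.1 hτ1
    have t3 := abs_le.1 (P.hJ (Z (ω (.inl 0)) + Z (ω (.inl 1)) + τ)
      (abs_le.2 ⟨by linarith [z2.1], by linarith [z2.2]⟩))
    rw [z3] at t3
    have t4 := abs_le.1 (hmg j)
    have := P.hwh
    have : (Z (ω (.inl 0)) + Z (ω (.inl 1)) + τ - m j) ^ 2 ≤ (2 * P.h) ^ 2 :=
      sq_le_sq' (by linarith) (by linarith)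
    linarith
  have TJs := sum_le_sum (s := univ) fun j _ => TJ j
  have hsH : ∑ j, 𝔼 ω : Fin 3 ⊕ P.Λ → Ω, P.H τ j (fun k => Z (ω k)) ≤ 1 := by
    rw [← expect_sum_comm]
    refine expect_le univ_nonempty fun ω _ => ?_
    simp only [H, ← mul_sum, sum_ite_eq, mem_univ, if_true]
    rcases Y01 (Z (ω (.inl 1))) with h2 | h2 <;> rcases P.A01 (Z (ω (.inl 0))) with h3 | h3 <;>
      simp [h2, h3]
  rw [← mul_sum] at TJs
  have hc : 0 ≤ (∏ j, p j) * ((4 * P.h ^ 2 + 4 * Fintype.card P.Λ * P.w ^ 2) / P.q) :=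
    mul_nonneg hP0.le (div_nonneg (by positivity) P.hq.le)
  have TJ2 := TJs.trans (mul_le_of_le_one_right hc hsH)
  simp only [r, add_mul, sub_mul (_ + _ : ℝ), sum_mul, expect_sub_distrib, expect_add_distrib,
    expect_sum_comm]
  have := mul_le_mul_of_nonneg_left P.num hP0.le
  have := mul_le_mul_of_nonneg_right hPq P.hη.le
  linarith

end Par

end Vale.Agent.P047
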