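import Vale.Agent.P047.Clt

/-! Low-degree partitions of Boolean cubes with scores. -/

set_option linter.unusedSectionVars false

namespace Vale.Agent.P047

open Finset
open scoped BigOperators

def sg (b : Bool) : ℝ := if b then 1 else -1

theorem sg_mul_self (b : Bool) : sg b * sg b = 1 := by cases b <;> simp [sg]

section deg
variable {ι : Type} [Fintype ι] [DecidableEq ι]

def chi (S : Finset ι) : (ι → Bool) → ℝ := fun x => ∏ i ∈ S, sg (x i)

/-- functions of degree at most `d` -/
def V (ι : Type) (d : ℕ) : Submodule ℝ ((ι → Bool) → ℝ) :=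
  Submodule.span ℝ {g | ∃ S : Finset ι, S.card ≤ d ∧ g = chi S}

theorem chi_mul (S T : Finset ι) : chi S * chi T = chi (symmDiff S T) := by
  funext x
  simp only [chi, Pi.mul_apply]
  rw [← prod_inter_mul_prod_sdiff S T, ← prod_inter_mul_prod_sdiff T S, inter_comm T S,
    symmDiff_def, sup_eq_union, prod_union disjoint_sdiff_sdiff]
  have : (∏ i ∈ S ∩ T, sg (x i)) * ∏ i ∈ S ∩ T, sg (x i) = 1 := by
    rw [← prod_mul_distrib]; exact prod_eq_one fun i _ => sg_mul_self _
  linear_combination ((∏ i ∈ S \ T, sg (x i)) * ∏ i ∈ T \ S, sg (x i)) * this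

theorem chi_mem {S : Finset ι} {d : ℕ} (h : S.card ≤ d) : chi S ∈ V ι d :=
  Submodule.subset_span ⟨S, h, rfl⟩

theorem V_mono {d e : ℕ} (h : d ≤ e) {g} (hg : g ∈ V ι d) : g ∈ V ι e :=
  Submodule.span_mono (by rintro _ ⟨S, hS, rfl⟩; exact ⟨S, hS.trans h, rfl⟩) hg

theorem V_mul {d e : ℕ} {f g} (hf : f ∈ V ι d) (hg : g ∈ V ι e) : f * g ∈ V ι (d + e) := by
  induction hf using Submodule.span_induction with
  | mem f hf =>
    obtain ⟨S, hS, rfl⟩ := hf
    induction hg using Submodule.span_induction with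
    | mem g hg =>
      obtain ⟨T, hT, rfl⟩ := hg
      rw [chi_mul]
      refine chi_mem ((card_le_card symmDiff_le_sup).trans ((card_union_le _ _).trans ?_))
      omega
    | zero => simp
    | add g g' _ _ h1 h2 => rw [mul_add]; exact add_mem h1 h2
    | smul a g _ h => rw [mul_smul_comm]; exact Submodule.smul_mem _ _ h
  | zero => simp
  | add g g' _ _ h1 h2 => rw [add_mul]; exact add_mem h1 h2
  | smul a g _ h => rw [smul_mul_assoc]; exact Submodule.smul_mem _ _ h

theorem const_mem (a : ℝ) : (fun _ => a) ∈ V ι 0 := by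
  have := Submodule.smul_mem (V ι 0) a (chi_mem (S := ∅) (by simp))
  convert this using 1
  funext x; simp [chi]

theorem V_pull {κ : Type} [Fintype κ] [DecidableEq κ] (e : κ → ι) (he : Function.Injective e)
    {d : ℕ} {g} (hg : g ∈ V κ d) : (fun x : ι → Bool => g (fun k => x (e k))) ∈ V ι d := by
  induction hg using Submodule.span_induction with
  | mem g hg =>
    obtain ⟨S, hS, rfl⟩ := hg
    have : (fun x : ι → Bool => chi S (fun k => x (e k))) = chi (S.image e) := by
      funext x; simp only [chi]; rw [prod_image he.injOn]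
    rw [this]
    exact chi_mem (card_image_le.trans hS)
  | zero => exact zero_mem _
  | add g g' _ _ h1 h2 => exact add_mem h1 h2
  | smul a g _ h => exact Submodule.smul_mem _ a h

theorem sum_chi {S : Finset ι} (hS : S.Nonempty) : ∑ x, chi S x = 0 := by
  obtain ⟨i, hi⟩ := hS
  have : ∀ x : ι → Bool, chi S x = ∏ j, (if j ∈ S then sg (x j) else 1) := by
    intro x; rw [prod_ite_mem, univ_inter]; rfl
  simp only [this]
  rw [← Fintype.piFinset_univ, ← prod_univ_sum (fun _ => univ) (fun j b => if j ∈ S then sg b else 1)]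
  exact prod_eq_zero (mem_univ i) (by simp [hi, sg])

theorem V_orth {d : ℕ} {g} (hg : g ∈ V ι d) {S : Finset ι} (hS : d < S.card) :
    ∑ x, g x * chi S x = 0 := by
  induction hg using Submodule.span_induction with
  | mem g hg =>
    obtain ⟨T, hT, rfl⟩ := hg
    have := sum_chi (S := symmDiff T S) (by
      rw [nonempty_iff_ne_empty]
      intro h
      rw [← bot_eq_empty, symmDiff_eq_bot] at h
      subst h; omega)
    rw [← chi_mul] at this
    exact this
  | zero => simp
  | add g g' _ _ h1 h2 => simp [add_mul, sum_add_distrib, h1, h2]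
  | smul a g _ h => simp [mul_assoc, ← mul_sum, h]

theorem V_dep {κ α : Type} [DecidableEq κ] [Inhabited α] (F : κ → (ι → Bool) → α) (c : ℕ)
    (hF : ∀ k (φ : α → ℝ), (fun x => φ (F k x)) ∈ V ι c) (s : Finset κ) :
    ∀ Φ : (κ → α) → ℝ, (∀ z z', (∀ k ∈ s, z k = z' k) → Φ z = Φ z') →
      (fun x => Φ (fun k => F k x)) ∈ V ι (s.card * c) := by
  classical
  induction s using Finset.induction_on with
  | empty =>
    intro Φ hΦ
    have : (fun x => Φ (fun k => F k x)) = fun _ => Φ default := funext fun x => hΦ _ _ (by simp)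
    rw [this]; simpa using const_mem _
  | insert k s hk ih =>
    intro Φ hΦ
    have : (fun x => Φ (fun k => F k x)) = ∑ a ∈ univ.image (F k),
        (fun x => if F k x = a then (1 : ℝ) else 0) * fun x => Φ (Function.update (fun k => F k x) k a) := by
      funext x
      simp only [Finset.sum_apply, Pi.mul_apply, ite_mul, one_mul, zero_mul]
      rw [sum_ite_eq]
      simp
    rw [this, card_insert_of_notMem hk, add_mul, one_mul, add_comm]
    refine sum_mem fun a _ => V_mul (hF k fun b => if b = a then 1 else 0)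
      (ih (fun z => Φ (Function.update z k a)) fun z z' h => hΦ _ _ fun j hj => ?_)
    by_cases hjk : j = k
    · subst hjk; simp
    · simp [hjk, h j ((mem_insert.1 hj).resolve_left hjk)]

end deg

theorem E_update {κ Ω : Type} [Fintype κ] [DecidableEq κ] [Fintype Ω] [Nonempty Ω]
    (F : (κ → Ω) → ℝ) (k : κ) : 𝔼 ω, F ω = 𝔼 ω, 𝔼 a, F (Function.update ω k a) := by
  let e : (κ → Ω) × Ω ≃ (κ → Ω) × Ω := Function.Involutive.toPerm
    (fun p => (Function.update p.1 k p.2, p.1 k)) (fun p => by simp)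
  rw [← expect_product' (f := fun ω a => F (Function.update ω k a)), univ_product_univ,
    Fintype.expect_equiv e (fun p => F (Function.update p.1 k p.2)) (fun p => F p.1) (fun _ => rfl),
    ← univ_product_univ, expect_product' (f := fun ω _ => F ω)]
  simp

theorem E_curry {κ ι : Type} [Fintype κ] [DecidableEq κ] [Fintype ι] [DecidableEq ι]
    (G : (κ → ι → Bool) → ℝ) : 𝔼 x : κ × ι → Bool, G (fun k i => x (k, i)) = 𝔼 ω, G ω :=
  Fintype.expect_equiv (Equiv.curry κ ι Bool) _ _ fun _ => rfl

theorem comp_upd {κ Ω : Type} [DecidableEq κ] (Z : Ω → ℝ) (ω : κ → Ω) (k : κ) (a : Ω) :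
    (fun j => Z (Function.update ω k a j)) = Function.update (fun j => Z (ω j)) k (Z a) :=
  Function.comp_update Z ω k a

/-- A partition of a cube into the level sets of `Z`, each of degree at most `c`, such that
`lam * Z` is the conditional expectation of the coordinate sum. -/
structure Letter where
  ι : Type
  [fι : Fintype ι]
  [dι : DecidableEq ι]
  Z : (ι → Bool) → ℝ
  c : ℕ
  lam : ℝ
  deg : ∀ φ : ℝ → ℝ, (fun x => φ (Z x)) ∈ V ι c
  cond : ∀ φ : ℝ → ℝ, 𝔼 x, φ (Z x) * ∑ i, sg (x i) = lam * 𝔼 x, φ (Z x) * Z x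

@[reducible] instance (L : Letter) : Fintype L.ι := L.fι
@[reducible] instance (L : Letter) : DecidableEq L.ι := L.dι

/-- functions depending on at most `D` coordinates, and their combinations -/
def Jt (κ : Type) (D : ℕ) : Submodule ℝ ((κ → ℝ) → ℝ) :=
  Submodule.span ℝ {Φ | ∃ s : Finset κ, s.card ≤ D ∧ ∀ z z', (∀ k ∈ s, z k = z' k) → Φ z = Φ z'}

/-- a new letter from a finite family of independent copies -/
noncomputable def Letter.pi (L : Letter) (κ : Type) [Fintype κ] [DecidableEq κ]
    (Ψ : (κ → ℝ) → ℝ) (D : ℕ) (θ : ℝ) (h1 : ∀ φ : ℝ → ℝ, (fun z => φ (Ψ z)) ∈ Jt κ D)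
    (h2 : ∀ φ : ℝ → ℝ, 𝔼 ω : κ → L.ι → Bool, φ (Ψ fun k => L.Z (ω k)) * ∑ k, L.Z (ω k)
      = θ * 𝔼 ω : κ → L.ι → Bool, φ (Ψ fun k => L.Z (ω k)) * Ψ fun k => L.Z (ω k)) : Letter where
  ι := κ × L.ι
  Z x := Ψ fun k => L.Z fun i => x (k, i)
  c := D * L.c
  lam := L.lam * θ
  deg φ := by
    have : ∀ Φ ∈ Jt κ D, (fun x : κ × L.ι → Bool => Φ fun k => L.Z fun i => x (k, i))
        ∈ V (κ × L.ι) (D * L.c) := by
      intro Φ hΦ
      induction hΦ using Submodule.span_induction with
      | mem Φ hΦ =>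
        obtain ⟨s, hs, h⟩ := hΦ
        exact V_mono (Nat.mul_le_mul_right _ hs) (V_dep (fun k x => L.Z fun i => x (k, i)) L.c
          (fun k φ => V_pull (Prod.mk k) (Prod.mk_right_injective k) (L.deg φ)) s Φ h)
      | zero => exact zero_mem _
      | add g g' _ _ h1 h2 => exact add_mem h1 h2
      | smul a g _ h => exact Submodule.smul_mem _ a h
    exact this _ (h1 φ)
  cond φ := by
    have e1 := E_curry (fun ω : κ → L.ι → Bool => φ (Ψ fun k => L.Z (ω k)) * ∑ k, ∑ i, sg (ω k i))
    have e2 := E_curry (fun ω : κ → L.ι → Bool => φ (Ψ fun k => L.Z (ω k)) * Ψ fun k => L.Z (ω k))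
    simp only [Fintype.sum_prod_type]
    rw [e1, e2, mul_assoc, ← h2]
    simp only [mul_sum (s := (univ : Finset κ)), expect_sum_comm]
    refine sum_congr rfl fun k _ => ?_
    rw [E_update _ k, E_update (fun ω => φ (Ψ fun k => L.Z (ω k)) * L.Z (ω k)) k, mul_expect]
    refine expect_congr rfl fun ω _ => ?_
    simp only [Function.update_self, comp_upd]
    exact L.cond fun t => φ (Ψ (Function.update (fun k => L.Z (ω k)) k t))

theorem Letter.pi_E (L : Letter) (κ : Type) [Fintype κ] [DecidableEq κ] (Ψ D θ h1 h2) (φ : ℝ → ℝ) :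
    𝔼 x, φ ((L.pi κ Ψ D θ h1 h2).Z x) = 𝔼 ω : κ → L.ι → Bool, φ (Ψ fun k => L.Z (ω k)) :=
  E_curry (fun ω : κ → L.ι → Bool => φ (Ψ fun k => L.Z (ω k)))

theorem E_sg_sum {ι : Type} [Fintype ι] [DecidableEq ι] : 𝔼 x : ι → Bool, ∑ i, sg (x i) = 0 := by
  rw [expect_sum_comm]
  refine sum_eq_zero fun i _ => ?_
  have := sum_chi (S := {i}) (by simp)
  simp only [chi, prod_singleton] at this
  rw [Fintype.expect_eq_sum_div_card, this, zero_div]

theorem Letter.mean (L : Letter) (h : L.lam ≠ 0) : 𝔼 x, L.Z x = 0 := by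
  have := L.cond fun _ => 1
  simp only [one_mul, E_sg_sum] at this
  exact (mul_eq_zero.1 this.symm).resolve_left h

/-- the one-bit letter -/
def bit : Letter where
  ι := Unit
  Z x := sg (x ())
  c := 1
  lam := 1
  deg φ := by
    have : (fun x : Unit → Bool => φ (sg (x ()))) = ((φ 1 + φ (-1)) / 2) • chi ∅
        + ((φ 1 - φ (-1)) / 2) • chi {()} := by
      funext x; cases h : x () <;> simp [chi, sg, h] <;> ring
    rw [this]
    exact add_mem (Submodule.smul_mem _ _ (chi_mem (by simp)))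
      (Submodule.smul_mem _ _ (chi_mem (by simp)))
  cond φ := by simp

end Vale.Agent.P047
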