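import Vale.Agent.P047.Gadget

/-! Amplification. -/

set_option linter.unusedSectionVars false
set_option linter.unusedSimpArgs false

namespace Vale.Agent.P047

open Finset ProbabilityTheory Filter
open scoped BigOperators

theorem exists_grid (K : ℕ) {h : ℝ} (hh : 0 < h) : ∃ J : ℝ → Bool × Fin (K + 1), ∀ x, |x| ≤ K * h →
    |x - (if (J x).1 then ((J x).2 : ℝ) * h else -(((J x).2 : ℝ) * h))| ≤ h := by
  refine ⟨fun x => (decide (0 ≤ x), ⟨min ⌊|x| / h⌋₊ K, by omega⟩), fun x hx => ?_⟩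
  have h1 : ⌊|x| / h⌋₊ ≤ K := Nat.floor_le_of_le (by rwa [div_le_iff₀ hh])
  have h2 := Nat.floor_le (show 0 ≤ |x| / h by positivity)
  have h3 := Nat.lt_floor_add_one (|x| / h)
  rw [le_div_iff₀ hh] at h2
  rw [div_lt_iff₀ hh] at h3
  simp only [min_eq_left h1, decide_eq_true_eq]
  split_ifs with h0
  · rw [abs_of_nonneg h0] at h2 h3 ⊢; rw [abs_le]; constructor <;> linarith
  · rw [abs_of_neg (not_le.1 h0)] at h2 h3 ⊢; rw [abs_le]; constructor <;> linarith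

theorem exists_par : ∃ P : Par, 0 < P.y ∧ ENNReal.ofReal P.y < gaussianReal 0 1 (Set.Ioo 1 2) ∧
    ∀ j, ENNReal.ofReal P.q < gaussianReal 0 1 (Set.Ioo (P.g j - P.w) (P.g j + P.w)) := by
  obtain ⟨y, hy, hy1⟩ := gauss_lower 2
  have hy2 := hy1 1 2 (by norm_num) (by norm_num) le_rfl
  rw [show (2 : ℝ) - 1 = 1 by norm_num, mul_one] at hy2
  obtain ⟨R, hR⟩ := exists_nat_gt (192 / y + 1)
  have hR0 : 0 < 192 / y := by positivity
  obtain ⟨c, hc, hc1⟩ := gauss_lower (R + 4)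
  obtain ⟨N, hN⟩ := exists_nat_gt (16 * (4 * R + 18) / (c * y) + 4 * (R + 4) : ℝ)
  have hN0 : 0 < 16 * (4 * (R : ℝ) + 18) / (c * y) := by positivity
  have hR1 : (1 : ℝ) ≤ R := by linarith
  have hN1 : 4 * ((R : ℝ) + 4) ≤ N := by linarith
  have hN2 : (1 : ℝ) ≤ N := by linarith
  have hNp : (0 : ℝ) < N := by linarith
  have hN3 : 16 * (4 * R + 18) ≤ N * (c * y) := by
    rw [← div_le_iff₀ (by positivity)]; linarith
  obtain ⟨J, hJ⟩ := exists_grid ((R + 3) * N ^ 2) (h := 1 / (N : ℝ) ^ 2) (by positivity)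
  have hK : (((R + 3) * N ^ 2 : ℕ) : ℝ) * (1 / (N : ℝ) ^ 2) = R + 3 := by push_cast; field_simp
  have hcard : (Fintype.card (Bool × Fin ((R + 3) * N ^ 2 + 1)) : ℝ) ≤ 2 * (R + 4) * N ^ 2 := by
    simp only [Fintype.card_prod, Fintype.card_bool, Fintype.card_fin]
    push_cast
    nlinarith [one_le_pow₀ (n := 2) hN2]
  have hw1 : (1 : ℝ) / N ^ 3 ≤ 1 / 4 := by
    refine one_div_le_one_div_of_le (by norm_num) ?_
    exact le_trans (by linarith) (le_self_pow₀ hN2 (by norm_num))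
  refine ⟨{ Λ := Bool × Fin ((R + 3) * N ^ 2 + 1)
            g := fun j => if j.1 then (j.2 : ℝ) * (1 / (N : ℝ) ^ 2) else -((j.2 : ℝ) * (1 / (N : ℝ) ^ 2))
            J := J, R := R, h := 1 / (N : ℝ) ^ 2, w := 1 / (N : ℝ) ^ 3, q := c * (2 / (N : ℝ) ^ 3)
            y := y, η := y / 8
            sum_g := by simp [Fintype.sum_prod_type]
            hJ := fun x hx => hJ x (by rwa [hK])
            hR := hR1
            hw := by positivity
            hwh := one_div_le_one_div_of_le (by positivity) (pow_le_pow_right₀ hN2 (by norm_num))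
            hw1 := ?_
            hw2 := hw1
            hq := by positivity
            hη := by positivity
            num := ?_ }, hy, hy2, fun j => ?_⟩
  · refine (mul_le_mul_of_nonneg_right hcard (by positivity)).trans ?_
    rw [show 2 * ((R : ℝ) + 4) * N ^ 2 * (1 / N ^ 3) = 2 * (R + 4) / N by field_simp,
      div_le_iff₀ hNp]
    linarith
  · have a1 : 12 / (R : ℝ) ^ 2 ≤ y / 16 := by
      rw [div_le_iff₀ (by positivity)]
      have : 192 / y ≤ (R : ℝ) ^ 2 := by nlinarith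
      rw [div_le_iff₀ hy] at this
      linarith
    have a2 : (4 * (1 / (N : ℝ) ^ 2) ^ 2 + 4 * (Fintype.card (Bool × Fin ((R + 3) * N ^ 2 + 1)) : ℝ)
        * (1 / (N : ℝ) ^ 3) ^ 2) / (c * (2 / (N : ℝ) ^ 3)) ≤ y / 16 := by
      calc _ ≤ (4 * (1 / (N : ℝ) ^ 2) ^ 2 + 4 * (2 * (R + 4) * N ^ 2)
            * (1 / (N : ℝ) ^ 3) ^ 2) / (c * (2 / (N : ℝ) ^ 3)) := by gcongr
        _ = (4 * R + 18) / (N * c) := by field_simp; ring
        _ ≤ _ := by rw [div_le_iff₀ (by positivity)]; linarith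
    linarith
  · have hj : (j.2 : ℝ) * (1 / (N : ℝ) ^ 2) ≤ R + 3 := by
      rw [← hK]
      have : (j.2 : ℝ) ≤ (((R + 3) * N ^ 2 : ℕ) : ℝ) := by exact_mod_cast Nat.le_of_lt_succ j.2.2
      gcongr
    have hj0 : 0 ≤ (j.2 : ℝ) * (1 / (N : ℝ) ^ 2) := by positivity
    have hw0 : (0 : ℝ) < 1 / N ^ 3 := by positivity
    simp only
    convert hc1 _ _ _ _ _ using 3
    · ring
    · linarith
    · split_ifs <;> linarith
    · split_ifs <;> linarith

theorem Jt_mem {κ : Type} [Fintype κ] [DecidableEq κ] (k : κ) {Φ : (κ → ℝ) → ℝ}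
    (h : ∀ z t, Φ (Function.update z k t) = Φ z) : Φ ∈ Jt κ (Fintype.card κ - 1) := by
  refine Submodule.subset_span ⟨univ.erase k, by simp, fun z z' hz => ?_⟩
  rw [← h z (z' k)]
  congr 1
  funext j
  by_cases hj : j = k
  · subst hj; simp
  · simp [hj, hz j (by simpa using hj)]

/-- normalised letters -/
structure Letter.Good (L : Letter) : Prop where
  var : 𝔼 x, L.Z x ^ 2 = 1
  lam : 0 < L.lam
  c : 0 < L.c

noncomputable def Letter.scale (L : Letter) (a : ℝ) (ha : a ≠ 0) : Letter where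
  ι := L.ι
  Z x := L.Z x / a
  c := L.c
  lam := L.lam * a
  deg φ := L.deg fun t => φ (t / a)
  cond φ := by
    rw [L.cond fun t => φ (t / a), mul_assoc, mul_expect, mul_expect, mul_expect]
    exact expect_congr rfl fun x _ => by field_simp

noncomputable def Letter.pow (L : Letter) (M : ℕ) (hM : 0 < M) : Letter :=
  L.pi (Fin M) (fun z => (√M)⁻¹ * ∑ k, z k) M √M
    (fun φ => Submodule.subset_span ⟨univ, by simp, fun z z' h => by
      rw [show z = z' from funext fun k => h k (mem_univ _)]⟩)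
    (fun φ => by
      rw [mul_expect]
      have : (√M : ℝ) ≠ 0 := by positivity
      exact expect_congr rfl fun x _ => by field_simp)

theorem Letter.pow_E (L : Letter) (M : ℕ) (hM : 0 < M) (φ : ℝ → ℝ) :
    𝔼 x, φ ((L.pow M hM).Z x) = 𝔼 ω : Fin M → L.ι → Bool, φ ((√M)⁻¹ * ∑ k, L.Z (ω k)) :=
  L.pi_E _ _ _ _ _ _ φ

theorem Letter.Good.pow {L : Letter} (hL : L.Good) {M : ℕ} (hM : 0 < M) : (L.pow M hM).Good where
  var := by
    rw [L.pow_E M hM (· ^ 2)]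
    simp only [mul_pow, ← mul_expect]
    rw [E_sum_sq (L.mean hL.lam.ne') hL.var]
    simp; field_simp
  lam := mul_pos hL.lam (by positivity)
  c := Nat.mul_pos hM hL.c

theorem Letter.pow_ratio (L : Letter) {M : ℕ} (hM : 0 < M) :
    (L.pow M hM).lam ^ 2 / (L.pow M hM).c = L.lam ^ 2 / L.c := by
  change (L.lam * √M) ^ 2 / ((M * L.c : ℕ) : ℝ) = _
  rw [mul_pow, Real.sq_sqrt (by positivity)]
  push_cast
  rw [mul_comm (M : ℝ), mul_div_mul_right _ _ (by positivity)]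

theorem Letter.Good.pow_four {L : Letter} (hL : L.Good) {M : ℕ} (hM : 0 < M)
    (h : 𝔼 x, L.Z x ^ 4 ≤ M) : 𝔼 x, (L.pow M hM).Z x ^ 4 ≤ 4 := by
  rw [L.pow_E M hM (· ^ 4)]
  simp only [mul_pow, ← mul_expect]
  have h1 := E_sum_four (L.mean hL.lam.ne') hL.var (univ : Finset (Fin M))
  simp only [card_univ, Fintype.card_fin] at h1
  have hM' : (0 : ℝ) < M := by exact_mod_cast hM
  rw [inv_pow, show √(M : ℝ) ^ 4 = (√M ^ 2) ^ 2 by ring, Real.sq_sqrt hM'.le, inv_mul_le_iff₀ (by positivity)]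
  nlinarith

theorem gadget (P : Par) {L : Letter} (hL : L.Good) (h4 : 𝔼 x, L.Z x ^ 4 ≤ 4)
    (hy : P.y ≤ 𝔼 a, Par.Y (L.Z a)) (hp : ∀ j, P.q ≤ 𝔼 a, P.u j (L.Z a)) :
    ∃ L' : Letter, L'.Good ∧ (1 + P.q ^ Fintype.card P.Λ * P.η / (Fintype.card P.Λ + 2)) *
      (L.lam ^ 2 / L.c) ≤ L'.lam ^ 2 / L'.c := by
  have h0 := L.mean hL.lam.ne'
  have h1 := hL.var
  obtain ⟨τ, hτ⟩ := P.gain h0 h1 h4 hy hp
  let zz : (Fin 3 ⊕ P.Λ → L.ι → Bool) → Fin 3 ⊕ P.Λ → ℝ := fun ω k => L.Z (ω k)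
  set μ := (𝔼 ω, P.r τ (zz ω) * P.S (zz ω)) / 𝔼 ω, P.r τ (zz ω) with hμ
  have r0 : ∀ z, 0 ≤ P.r τ z := fun z => by rcases P.r01 τ z with h | h <;> simp [h]
  have hμ' : 𝔼 ω, P.r τ (zz ω) * P.S (zz ω) = μ * 𝔼 ω, P.r τ (zz ω) := by
    by_cases h : 𝔼 ω, P.r τ (zz ω) = 0
    · rw [h, mul_zero]
      rw [Fintype.expect_eq_zero_iff_of_nonneg (fun ω => r0 _)] at h
      exact expect_eq_zero fun ω _ => by rw [congrFun h ω]; simp
    · rw [hμ]; field_simp
  let Ψ : (Fin 3 ⊕ P.Λ → ℝ) → ℝ := fun z => (1 - P.r τ z) * P.S z + P.r τ z * (μ + z (.inl 2))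
  have hΨ : ∀ (φ : ℝ → ℝ) z, φ (Ψ z) = (1 - P.r τ z) * φ (P.S z) + P.r τ z * φ (μ + z (.inl 2)) := by
    intro φ z
    rcases P.r01 τ z with h | h <;> simp [Ψ, h]
  have ru : ∀ z t, P.r τ (Function.update z (.inl 2) t) = P.r τ z := by
    intro z t; simp [Par.r, Par.H]
  have Su : ∀ z t, P.S (Function.update z (.inl 2) t) = P.S z := by
    intro z t; simp [Par.S]
  have hJ : ∀ φ : ℝ → ℝ, (fun z => φ (Ψ z)) ∈ Jt (Fin 3 ⊕ P.Λ) (Fintype.card (Fin 3 ⊕ P.Λ) - 1) := by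
    intro φ
    have : (fun z => φ (Ψ z)) = (fun z => (1 - P.r τ z) * φ (P.S z)) +
        (∑ j, (fun z => (P.H τ j z * ∏ i ∈ univ.erase j, P.u i (z (.inr i))) * φ (μ + z (.inl 2)))
        + (fun z => ((1 - P.A (z (.inl 0))) * ∏ i, P.u i (z (.inr i))) * φ (μ + z (.inl 2)))
        - fun z => (Par.Y (z (.inl 1)) * ∏ i, P.u i (z (.inr i))) * φ (μ + z (.inl 2))) := by
      funext z
      simp only [hΨ, Pi.add_apply, Pi.sub_apply, Finset.sum_apply, ← sum_mul, ← add_mul, ← sub_mul]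
      rfl
    rw [this]
    refine add_mem (Jt_mem (.inl 2) fun z t => by rw [ru, Su]) (sub_mem (add_mem (sum_mem fun j _ =>
      Jt_mem (.inr j) fun z t => ?_) (Jt_mem (.inl 1) (by simp))) (Jt_mem (.inl 0) (by simp)))
    exact congrArg₂ _ (congrArg₂ _ (by simp [Par.H]) (prod_congr rfl fun i hi => by
      rw [Function.update_of_ne (by simpa using (mem_erase.1 hi).1)])) (by simp)
  have hsum : ∀ z : Fin 3 ⊕ P.Λ → ℝ, ∑ k, z k = P.S z + z (.inl 2) := by
    intro z; simp [Par.S, Fintype.sum_sum_type, Fin.sum_univ_three]; ring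
  have indep : ∀ (G : (Fin 3 ⊕ P.Λ → ℝ) → ℝ) (ψ : ℝ → ℝ),
      (∀ z t, G (Function.update z (.inl 2) t) = G z) →
      𝔼 ω, G (zz ω) * ψ (zz ω (.inl 2)) = (𝔼 ω, G (zz ω)) * 𝔼 a, ψ (L.Z a) := by
    intro G ψ hG
    rw [E_update _ (.inl 2), expect_mul]
    refine expect_congr rfl fun ω _ => ?_
    simp only [zz, comp_upd, hG, Function.update_self, ← mul_expect]
  have hc : ∀ φ : ℝ → ℝ, 𝔼 ω, φ (Ψ (zz ω)) * ∑ k, zz ω k = 1 * 𝔼 ω, φ (Ψ (zz ω)) * Ψ (zz ω) := by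
    intro φ
    have a1 := indep (fun z => (1 - P.r τ z) * φ (P.S z)) id (fun z t => by rw [ru, Su])
    have a2 := indep (fun z => P.r τ z * P.S z) (fun t => φ (μ + t)) (fun z t => by rw [ru, Su])
    have a3 := indep (fun z => P.r τ z) (fun t => φ (μ + t)) ru
    have : ∀ z, φ (Ψ z) * ∑ k, z k = φ (Ψ z) * Ψ z + (1 - P.r τ z) * φ (P.S z) * id (z (.inl 2))
        + P.r τ z * P.S z * φ (μ + z (.inl 2)) - μ * (P.r τ z * φ (μ + z (.inl 2))) := by
      intro z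
      rw [hsum]
      rcases P.r01 τ z with h | h <;> simp [Ψ, h] <;> ring
    simp only [this, expect_add_distrib, expect_sub_distrib, ← mul_expect, a1, a2, a3, hμ']
    simp only [id, h0]
    ring
  let L1 := L.pi (Fin 3 ⊕ P.Λ) Ψ _ 1 hJ hc
  set G := P.q ^ Fintype.card P.Λ * P.η with hG
  have hG0 : 0 < G := mul_pos (pow_pos P.hq _) P.hη
  set W := 𝔼 x, L1.Z x ^ 2 with hW
  have hW1 : (Fintype.card P.Λ : ℝ) + 2 + G ≤ W := by
    rw [hW, L.pi_E _ _ _ _ _ _ (· ^ 2)]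
    have a1 := E_sum_sq h0 h1 (univ.erase (Sum.inl 2 : Fin 3 ⊕ P.Λ))
    have a2 : ∀ z : Fin 3 ⊕ P.Λ → ℝ, ∑ k ∈ univ.erase (Sum.inl 2), z k = P.S z := by
      intro z; rw [sum_erase_eq_sub (mem_univ _), hsum]; ring
    have a3 := indep (fun z => P.r τ z) (fun t => (μ + t) ^ 2 - 1) ru
    have a4 : 𝔼 a, ((μ + L.Z a) ^ 2 - 1) = μ ^ 2 := by
      simp only [add_sq, expect_add_distrib, expect_sub_distrib, ← mul_expect, h0, h1,
        Fintype.expect_const]
      ring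
    have a5 : ∀ z, Ψ z ^ 2 = P.S z ^ 2 - P.r τ z * (P.S z ^ 2 - 1)
        + P.r τ z * ((μ + z (.inl 2)) ^ 2 - 1) := by
      intro z; rw [hΨ (· ^ 2)]; ring
    simp only [a2 (zz _), zz] at a1
    rw [card_erase_of_mem (mem_univ _), card_univ, Fintype.card_sum, Fintype.card_fin,
      show 3 + Fintype.card P.Λ - 1 = Fintype.card P.Λ + 2 by omega] at a1
    simp only [a5, expect_add_distrib, expect_sub_distrib]
    simp only [zz] at a3
    rw [a1, a3, a4]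
    have := mul_nonneg (expect_nonneg (s := univ) fun ω _ => r0 (zz ω)) (sq_nonneg μ)
    push_cast
    linarith
  have hW0 : 0 < W := lt_of_lt_of_le (by positivity) hW1
  have hcard : Fintype.card (Fin 3 ⊕ P.Λ) - 1 = Fintype.card P.Λ + 2 := by simp; omega
  refine ⟨L1.scale √W (by positivity), ⟨?_, ?_, ?_⟩, ?_⟩
  · change 𝔼 x, (L1.Z x / √W) ^ 2 = 1
    simp only [div_pow, ← expect_div, ← hW, Real.sq_sqrt hW0.le, div_self hW0.ne']
  · exact mul_pos (mul_pos hL.lam one_pos) (by positivity)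
  · exact Nat.mul_pos (by omega) hL.c
  · change _ ≤ (L.lam * 1 * √W) ^ 2 / (((Fintype.card (Fin 3 ⊕ P.Λ) - 1) * L.c : ℕ) : ℝ)
    rw [hcard, mul_pow, Real.sq_sqrt hW0.le, mul_one]
    push_cast
    have hc0 : (0 : ℝ) < L.c := by exact_mod_cast hL.c
    rw [show L.lam ^ 2 * W / ((Fintype.card P.Λ + 2) * L.c) = W / (Fintype.card P.Λ + 2) *
      (L.lam ^ 2 / L.c) by field_simp]
    refine mul_le_mul_of_nonneg_right ?_ (by positivity)
    rw [le_div_iff₀ (by positivity), add_mul, div_mul_cancel₀ _ (by positivity)]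
    linarith

theorem step : ∃ γ : ℝ, 0 < γ ∧ ∀ L : Letter, L.Good → ∃ L' : Letter, L'.Good ∧
    (1 + γ) * (L.lam ^ 2 / L.c) ≤ L'.lam ^ 2 / L'.c := by
  classical
  obtain ⟨P, hy0, hy, hq⟩ := exists_par
  refine ⟨P.q ^ Fintype.card P.Λ * P.η / (Fintype.card P.Λ + 2),
    div_pos (mul_pos (pow_pos P.hq _) P.hη) (by positivity), fun L hL => ?_⟩
  have h0 := L.mean hL.lam.ne'
  have e1 := clt_open L.Z h0 hL.var isOpen_Ioo hy0.le hy
  have e2 := eventually_all.2 fun j => clt_open L.Z h0 hL.var isOpen_Ioo P.hq.le (hq j)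
  have e3 := tendsto_natCast_atTop_atTop.eventually_ge_atTop (𝔼 x, L.Z x ^ 4)
  obtain ⟨M, ⟨⟨m1, m2⟩, m3⟩, hM⟩ := (((e1.and e2).and e3).and (eventually_gt_atTop 0)).exists
  rw [← L.pow_ratio hM]
  refine gadget P (hL.pow hM) (hL.pow_four hM m3) ?_ fun j => ?_
  · rw [L.pow_E M hM Par.Y]
    exact m1.le.trans (le_of_eq (expect_congr rfl fun _ _ => by unfold Par.Y; congr))
  · rw [L.pow_E M hM (P.u j)]
    exact (m2 j).le.trans (le_of_eq (expect_congr rfl fun _ _ => by unfold Par.u; congr))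

theorem unbounded (C : ℝ) : ∃ L : Letter, L.Good ∧ C ≤ L.lam ^ 2 / L.c := by
  obtain ⟨γ, hγ, h⟩ := step
  have : ∀ k : ℕ, ∃ L : Letter, L.Good ∧ (1 + γ) ^ k ≤ L.lam ^ 2 / L.c := by
    intro k
    induction k with
    | zero => exact ⟨bit, ⟨by simp only [sq, bit, sg_mul_self]; exact Fintype.expect_const _, by simp [bit], by simp [bit]⟩, by simp [bit]⟩
    | succ k ih =>
      obtain ⟨L, hL, h1⟩ := ih
      obtain ⟨L', hL', h2⟩ := h L hL
      refine ⟨L', hL', le_trans ?_ h2⟩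
      rw [pow_succ, mul_comm]
      exact mul_le_mul_of_nonneg_left h1 (by linarith)
  obtain ⟨k, hk⟩ := pow_unbounded_of_one_lt C (show 1 < 1 + γ by linarith)
  obtain ⟨L, hL, h1⟩ := this k
  exact ⟨L, hL, hk.le.trans h1⟩

theorem boolean (C : ℝ) : ∃ (n d : ℕ) (f : (Fin n → Bool) → ℝ), (∀ x, f x = 1 ∨ f x = -1) ∧
    f ∈ V (Fin n) d ∧ 0 < d ∧ C * √d < 𝔼 x, f x * ∑ i, sg (x i) := by
  classical
  obtain ⟨P, hy0, hy, -⟩ := exists_par
  obtain ⟨L0, hL0, hC⟩ := unbounded ((|C| / P.y) ^ 2)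
  obtain ⟨M, m1, hM⟩ := ((clt_open L0.Z (L0.mean hL0.lam.ne') hL0.var isOpen_Ioo hy0.le hy).and
    (eventually_gt_atTop 0)).exists
  rw [← L0.pow_ratio hM] at hC
  have hL := hL0.pow hM
  have m2 : P.y < 𝔼 x, Par.Y ((L0.pow M hM).Z x) := by
    rw [L0.pow_E M hM Par.Y]; convert m1 using 3; unfold Par.Y; congr
  set L := L0.pow M hM
  let φ : ℝ → ℝ := fun t => if 0 < t then 1 else -1
  let e := Fintype.equivFin L.ι
  refine ⟨Fintype.card L.ι, L.c, fun x => φ (L.Z fun i => x (e i)), fun x => ?_,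
    V_pull e e.injective (L.deg φ), hL.c, ?_⟩
  · simp only [φ]; split_ifs <;> simp
  · rw [Fintype.expect_equiv (Equiv.arrowCongr e.symm (Equiv.refl Bool)) _
      (fun x => φ (L.Z x) * ∑ i, sg (x i)) (fun x => by
        rw [← Equiv.sum_comp e]; rfl), L.cond]
    have h1 : P.y < 𝔼 x, φ (L.Z x) * L.Z x := by
      refine m2.trans_le (expect_le_expect fun x _ => ?_)
      simp only [φ, Par.Y]
      split_ifs with h1 h2 h2
      · linarith [h1.1]
      · linarith [h1.1]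
      · linarith
      · linarith
    have hc0 : (0 : ℝ) < L.c := by exact_mod_cast hL.c
    have h2 : |C| / P.y * √L.c ≤ L.lam := by
      refine (abs_le_of_sq_le_sq' ?_ hL.lam.le).2
      rw [mul_pow, Real.sq_sqrt hc0.le, ← le_div_iff₀ hc0]
      exact hC
    calc C * √L.c ≤ |C| / P.y * √L.c * P.y := by
          rw [div_mul_eq_mul_div, div_mul_cancel₀ _ hy0.ne']
          exact mul_le_mul_of_nonneg_right (le_abs_self C) (by positivity)
      _ ≤ L.lam * P.y := mul_le_mul_of_nonneg_right h2 hy0.le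
      _ < _ := mul_lt_mul_of_pos_left h1 hL.lam

end Vale.Agent.P047
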